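import Mathlib

/-!
P329: skeletons. Two partial colourings of `ZMod D` by a group `G` such that, for every `m`, the
pairs of coloured residues with sum `m` relate the colours by one translation and meet all colours.
-/

namespace Vale.Agent.P329.Padded

/-- A skeleton with colours in `G`, whose left colours sit on multiples of `d`. -/
structure Skel (G : Type) [AddCommGroup G] (d : ℕ) where
  D : ℕ
  pos : 0 < D
  dvd : d ∣ D
  left : ZMod D → Option G
  right : ZMod D → Option G
  shift : ZMod D → G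
  left_dvd : ∀ (r : ℕ) a, left r = some a → d ∣ r
  sound : ∀ r t a b, left r = some a → right t = some b → b = a + shift (r + t)
  complete : ∀ m a, ∃ r t, r + t = m ∧ left r = some a ∧ right t = some (a + shift m)

section Two

variable (p q : ℕ)

/-- Left colours of the two colour skeleton. -/
def leftTwo (r : ZMod p × ZMod q) : Option (ZMod 2) :=
  if r.1 = 0 then
    if (-r.2).val = 0 ∨ (-r.2).val = 4 then some 0
    else if (-r.2).val = 1 ∨ (-r.2).val = 5 then some 1 else none
  else if (-r.2).val = 3 then some 0 else if (-r.2).val = 2 then some 1 else none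

/-- Right colours of the two colour skeleton. -/
def rightTwo (t : ZMod p × ZMod q) : Option (ZMod 2) :=
  if t.1 = 0 then
    if 5 ≤ t.2.val then some (t.2.val : ZMod 2) else none
  else if t.2.val = 3 then some 0 else if t.2.val = 1 then some 1 else none

/-- Translations of the two colour skeleton. -/
def shiftTwo (m : ZMod p × ZMod q) : ZMod 2 :=
  if m.1 ≠ 0 ∧ 2 ≤ m.2.val ∧ m.2.val + 3 ≤ q then (m.2.val : ZMod 2) + 1 else (m.2.val : ZMod 2)

variable {p q}

theorem two_cast (n : ℕ) : (n : ZMod 2) = if n % 2 = 0 then 0 else 1 := by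
  rcases Nat.mod_two_eq_zero_or_one n with h | h
  · rw [if_pos h, ← ZMod.natCast_mod, h]; rfl
  · rw [if_neg (by omega), ← ZMod.natCast_mod, h]; rfl

theorem neg_val_spec [NeZero q] {r t m : ZMod q} (h : r + t = m) :
    ((-r).val ≤ t.val ∧ m.val = t.val - (-r).val) ∨
      (t.val < (-r).val ∧ m.val = t.val + q - (-r).val) := by
  have h1 : m + -r = t := by rw [← h]; ring
  have h2 := ZMod.val_add m (-r)
  rw [h1] at h2
  have ha := ZMod.val_lt m
  have hb := ZMod.val_lt (-r)
  rcases Nat.lt_or_ge (m.val + (-r).val) q with hlt | hge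
  · rw [Nat.mod_eq_of_lt hlt] at h2
    left; omega
  · rw [Nat.mod_eq_sub_mod hge, Nat.mod_eq_of_lt (by omega)] at h2
    right; omega

theorem soundTwo [NeZero q] (hq : 9 ≤ q) (hodd : q % 2 = 1) (r t : ZMod p × ZMod q)
    (a b : ZMod 2) (ha : leftTwo p q r = some a) (hb : rightTwo p q t = some b) :
    b = a + shiftTwo p q (r + t) := by
  have hm := neg_val_spec (r := r.2) (t := t.2) (m := (r + t).2) rfl
  have hk := ZMod.val_lt t.2
  have hx := ZMod.val_lt (r + t).2
  have hz0 : r.1 = 0 → t.1 = 0 → (r + t).1 = 0 := fun h1 h2 => by simp [h1, h2]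
  have hz1 : r.1 = 0 → t.1 ≠ 0 → (r + t).1 ≠ 0 := fun h1 h2 => by simpa [h1] using h2
  have hz2 : r.1 ≠ 0 → t.1 = 0 → (r + t).1 ≠ 0 := fun h1 h2 => by simpa [h2] using h1
  simp only [shiftTwo, two_cast]
  generalize (r + t).2.val = x at hm hx ⊢
  generalize (r + t).1 = z at hz0 hz1 hz2 ⊢
  simp only [leftTwo] at ha
  simp only [rightTwo, two_cast] at hb
  generalize (-r.2).val = e at hm ha
  generalize t.2.val = k at hm hk hb
  split_ifs at ha with h1 <;> split_ifs at hb with h2 <;>
    simp only [Option.some.injEq] at ha hb <;> subst ha hb <;> split_ifs <;>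
    first
      | decide
      | (exfalso; simp_all <;> omega)

theorem witnessTwo [NeZero q] (m : ZMod p × ZMod q) (r1 : ZMod p) (e : ℕ) (he : e < q) :
    ∃ r t : ZMod p × ZMod q, r + t = m ∧ r.1 = r1 ∧ t.1 = m.1 - r1 ∧ (-r.2).val = e ∧
      t.2.val = (m.2.val + e) % q := by
  refine ⟨(r1, -(e : ZMod q)), (m.1 - r1, m.2 + e), ?_, rfl, rfl, ?_, ?_⟩
  · ext <;> simp
  · rw [neg_neg, ZMod.val_natCast, Nat.mod_eq_of_lt he]
  · rw [ZMod.val_add, ZMod.val_natCast, Nat.mod_eq_of_lt he]

theorem completeTwo [NeZero q] [NeZero p] (hp : 3 ≤ p) (hq : 9 ≤ q) (hodd : q % 2 = 1)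
    (m : ZMod p × ZMod q) (a : ZMod 2) :
    ∃ r t : ZMod p × ZMod q, r + t = m ∧ leftTwo p q r = some a ∧
      rightTwo p q t = some (a + shiftTwo p q m) := by
  obtain ⟨c, hc0, hcm⟩ : ∃ c : ZMod p, c ≠ 0 ∧ m.1 - c ≠ 0 := by
    have h1 : (1 : ZMod p) ≠ 0 := by
      intro h
      have := congrArg ZMod.val h
      rw [ZMod.val_zero, ZMod.val_one_eq_one_mod, Nat.mod_eq_of_lt (by omega)] at this
      omega
    have h2 : ((2 : ℕ) : ZMod p) ≠ 0 := by
      intro h
      have := congrArg ZMod.val h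
      rw [ZMod.val_zero, ZMod.val_natCast, Nat.mod_eq_of_lt (by omega)] at this
      omega
    by_cases hm : m.1 = 1
    · refine ⟨((2 : ℕ) : ZMod p), h2, fun h => h1 ?_⟩
      rw [hm, sub_eq_zero] at h
      have : ((2 : ℕ) : ZMod p) = 1 + 1 := by norm_num
      rw [this] at h
      exact add_eq_left.1 h.symm
    · exact ⟨1, h1, sub_ne_zero.2 hm⟩
  have hx := ZMod.val_lt m.2
  -- the first coordinate, and minus the second coordinate, of the left residue
  obtain ⟨r1, e, he, hr1, hgood⟩ : ∃ (r1 : ZMod p) (e : ℕ), e < q ∧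
      (r1 = 0 ∨ r1 = c ∨ r1 = m.1) ∧
      ∀ r t : ZMod p × ZMod q, r.1 = r1 → t.1 = m.1 - r1 → (-r.2).val = e →
        t.2.val = (m.2.val + e) % q →
        leftTwo p q r = some a ∧ rightTwo p q t = some (a + shiftTwo p q m) := by
    have key : ∀ (r1 : ZMod p) (e k : ℕ), (m.2.val + e) % q = k →
        ((r1 = 0 ∧ (((e = 0 ∨ e = 4) ∧ a = 0) ∨ ((e = 1 ∨ e = 5) ∧ a = 1))) ∨
          (r1 ≠ 0 ∧ ((e = 3 ∧ a = 0) ∨ (e = 2 ∧ a = 1)))) →
        ((m.1 - r1 = 0 ∧ 5 ≤ k ∧ (k : ZMod 2) = a + shiftTwo p q m) ∨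
          (m.1 - r1 ≠ 0 ∧ ((k = 3 ∧ a + shiftTwo p q m = 0) ∨
            (k = 1 ∧ a + shiftTwo p q m = 1)))) →
        ∀ r t : ZMod p × ZMod q, r.1 = r1 → t.1 = m.1 - r1 → (-r.2).val = e →
          t.2.val = (m.2.val + e) % q →
          leftTwo p q r = some a ∧ rightTwo p q t = some (a + shiftTwo p q m) := by
      intro r1 e k hk hl hr r t h1 h2 h3 h4
      rw [hk] at h4
      constructor
      · rcases hl with ⟨hz, ⟨rfl | rfl, rfl⟩ | ⟨rfl | rfl, rfl⟩⟩ |
            ⟨hz, ⟨rfl, rfl⟩ | ⟨rfl, rfl⟩⟩ <;> simp [leftTwo, h1, h3, hz]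
      · rcases hr with ⟨hz, h5, e5⟩ | ⟨hz, ⟨rfl, e5⟩ | ⟨rfl, e5⟩⟩
        · simp [rightTwo, h2, h4, hz, h5, e5]
        · simp [rightTwo, h2, h4, hz, e5]
        · simp [rightTwo, h2, h4, hz, e5]
    have hxlt : ∀ e, m.2.val + e < q → (m.2.val + e) % q = m.2.val + e := fun e h =>
      Nat.mod_eq_of_lt h
    have hxge : ∀ e, e < q → q ≤ m.2.val + e → (m.2.val + e) % q = m.2.val + e - q := fun e he h =>
      by rw [Nat.mod_eq_sub_mod h, Nat.mod_eq_of_lt (by omega)]
    rcases ((by decide : ∀ b : ZMod 2, b = 0 ∨ b = 1) a) with rfl | rfl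
    · by_cases hm : m.1 = 0
      · by_cases h5 : 5 ≤ m.2.val
        · exact ⟨0, 0, by omega, Or.inl rfl, key 0 0 m.2.val (hxlt 0 (by omega))
            (Or.inl ⟨rfl, Or.inl ⟨Or.inl rfl, rfl⟩⟩)
            (Or.inl ⟨by simp [hm], h5, by simp [shiftTwo, hm]⟩)⟩
        by_cases h1 : 1 ≤ m.2.val
        · exact ⟨0, 4, by omega, Or.inl rfl, key 0 4 (m.2.val + 4) (hxlt 4 (by omega))
            (Or.inl ⟨rfl, Or.inl ⟨Or.inr rfl, rfl⟩⟩)
            (Or.inl ⟨by simp [hm], by omega, by
              simp only [shiftTwo, hm, ne_eq, not_true_eq_false, false_and, if_false, zero_add,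
                two_cast]
              split_ifs <;> first | rfl | omega⟩)⟩
        · exact ⟨c, 3, by omega, Or.inr (Or.inl rfl), key c 3 3 (by rw [hxlt 3 (by omega)]; omega)
            (Or.inr ⟨hc0, Or.inl ⟨rfl, rfl⟩⟩)
            (Or.inr ⟨hcm, Or.inl ⟨rfl, by
              simp [shiftTwo, hm, show m.2.val = 0 by omega]⟩⟩)⟩
      · by_cases h0 : m.2.val = 0
        · exact ⟨c, 3, by omega, Or.inr (Or.inl rfl), key c 3 3 (by rw [hxlt 3 (by omega)]; omega)
            (Or.inr ⟨hc0, Or.inl ⟨rfl, rfl⟩⟩)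
            (Or.inr ⟨hcm, Or.inl ⟨rfl, by simp [shiftTwo, h0]⟩⟩)⟩
        by_cases h1 : m.2.val = 1
        · exact ⟨0, 0, by omega, Or.inl rfl, key 0 0 1 (by rw [hxlt 0 (by omega)]; omega)
            (Or.inl ⟨rfl, Or.inl ⟨Or.inl rfl, rfl⟩⟩)
            (Or.inr ⟨by simpa using hm, Or.inr ⟨rfl, by simp [shiftTwo, h1]⟩⟩)⟩
        by_cases h4 : m.2.val + 4 ≤ q
        · exact ⟨m.1, 3, by omega, Or.inr (Or.inr rfl),
            key m.1 3 (m.2.val + 3) (hxlt 3 (by omega)) (Or.inr ⟨hm, Or.inl ⟨rfl, rfl⟩⟩)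
            (Or.inl ⟨by simp, by omega, by
              simp only [shiftTwo, hm, ne_eq, not_false_eq_true, true_and, zero_add, two_cast]
              rw [if_pos (show 2 ≤ m.2.val ∧ m.2.val + 3 ≤ q by omega)]
              split_ifs <;> first | rfl | decide | omega⟩)⟩
        by_cases h3 : m.2.val + 3 = q
        · exact ⟨0, 4, by omega, Or.inl rfl,
            key 0 4 1 (by rw [hxge 4 (by omega) (by omega)]; omega)
            (Or.inl ⟨rfl, Or.inl ⟨Or.inr rfl, rfl⟩⟩)
            (Or.inr ⟨by simpa using hm, Or.inr ⟨rfl, by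
              simp only [shiftTwo, hm, ne_eq, not_false_eq_true, true_and, zero_add, two_cast]
              rw [if_pos (show 2 ≤ m.2.val ∧ m.2.val + 3 ≤ q by omega)]
              split_ifs <;> first | rfl | decide | omega⟩⟩)⟩
        by_cases h2 : m.2.val + 2 = q
        · exact ⟨c, 3, by omega, Or.inr (Or.inl rfl),
            key c 3 1 (by rw [hxge 3 (by omega) (by omega)]; omega)
            (Or.inr ⟨hc0, Or.inl ⟨rfl, rfl⟩⟩)
            (Or.inr ⟨hcm, Or.inr ⟨rfl, by
              simp only [shiftTwo, zero_add, two_cast]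
              split_ifs <;> first | rfl | decide | omega⟩⟩)⟩
        · exact ⟨0, 4, by omega, Or.inl rfl,
            key 0 4 3 (by rw [hxge 4 (by omega) (by omega)]; omega)
            (Or.inl ⟨rfl, Or.inl ⟨Or.inr rfl, rfl⟩⟩)
            (Or.inr ⟨by simpa using hm, Or.inl ⟨rfl, by
              simp only [shiftTwo, zero_add, two_cast]
              split_ifs <;> first | rfl | decide | omega⟩⟩)⟩
    · by_cases hm : m.1 = 0
      · by_cases h4 : 4 ≤ m.2.val ∧ m.2.val + 2 ≤ q
        · exact ⟨0, 1, by omega, Or.inl rfl, key 0 1 (m.2.val + 1) (hxlt 1 (by omega))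
            (Or.inl ⟨rfl, Or.inr ⟨Or.inl rfl, rfl⟩⟩)
            (Or.inl ⟨by simp [hm], by omega, by
              simp only [shiftTwo, hm, ne_eq, not_true_eq_false, false_and, if_false, two_cast]
              split_ifs <;> first | rfl | decide | omega⟩)⟩
        by_cases h5 : m.2.val + 6 ≤ q
        · exact ⟨0, 5, by omega, Or.inl rfl, key 0 5 (m.2.val + 5) (hxlt 5 (by omega))
            (Or.inl ⟨rfl, Or.inr ⟨Or.inr rfl, rfl⟩⟩)
            (Or.inl ⟨by simp [hm], by omega, by
              simp only [shiftTwo, hm, ne_eq, not_true_eq_false, false_and, if_false, two_cast]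
              split_ifs <;> first | rfl | decide | omega⟩)⟩
        · exact ⟨c, 2, by omega, Or.inr (Or.inl rfl),
            key c 2 1 (by rw [hxge 2 (by omega) (by omega)]; omega)
            (Or.inr ⟨hc0, Or.inr ⟨rfl, rfl⟩⟩)
            (Or.inr ⟨hcm, Or.inr ⟨rfl, by
              simp only [shiftTwo, hm, ne_eq, not_true_eq_false, false_and, if_false, two_cast]
              split_ifs <;> first | rfl | decide | omega⟩⟩)⟩
      · by_cases h0 : m.2.val = 0
        · exact ⟨0, 1, by omega, Or.inl rfl, key 0 1 1 (by rw [hxlt 1 (by omega)]; omega)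
            (Or.inl ⟨rfl, Or.inr ⟨Or.inl rfl, rfl⟩⟩)
            (Or.inr ⟨by simpa using hm, Or.inr ⟨rfl, by simp [shiftTwo, h0]⟩⟩)⟩
        by_cases h1 : m.2.val = 1
        · exact ⟨c, 2, by omega, Or.inr (Or.inl rfl), key c 2 3 (by rw [hxlt 2 (by omega)]; omega)
            (Or.inr ⟨hc0, Or.inr ⟨rfl, rfl⟩⟩)
            (Or.inr ⟨hcm, Or.inl ⟨rfl, by simp [shiftTwo, h1]; decide⟩⟩)⟩
        by_cases h2 : m.2.val = 2
        · exact ⟨0, 1, by omega, Or.inl rfl, key 0 1 3 (by rw [hxlt 1 (by omega)]; omega)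
            (Or.inl ⟨rfl, Or.inr ⟨Or.inl rfl, rfl⟩⟩)
            (Or.inr ⟨by simpa using hm, Or.inl ⟨rfl, by
              simp only [shiftTwo, hm, ne_eq, not_false_eq_true, true_and, two_cast]
              rw [if_pos (show 2 ≤ m.2.val ∧ m.2.val + 3 ≤ q by omega)]
              split_ifs <;> first | rfl | decide | omega⟩⟩)⟩
        by_cases h3 : m.2.val + 3 ≤ q
        · exact ⟨m.1, 2, by omega, Or.inr (Or.inr rfl),
            key m.1 2 (m.2.val + 2) (hxlt 2 (by omega)) (Or.inr ⟨hm, Or.inr ⟨rfl, rfl⟩⟩)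
            (Or.inl ⟨by simp, by omega, by
              simp only [shiftTwo, hm, ne_eq, not_false_eq_true, true_and, two_cast]
              rw [if_pos (show 2 ≤ m.2.val ∧ m.2.val + 3 ≤ q by omega)]
              split_ifs <;> first | rfl | decide | omega⟩)⟩
        by_cases h4 : m.2.val + 2 = q
        · exact ⟨0, 5, by omega, Or.inl rfl,
            key 0 5 3 (by rw [hxge 5 (by omega) (by omega)]; omega)
            (Or.inl ⟨rfl, Or.inr ⟨Or.inr rfl, rfl⟩⟩)
            (Or.inr ⟨by simpa using hm, Or.inl ⟨rfl, by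
              simp only [shiftTwo, two_cast]
              split_ifs <;> first | rfl | decide | omega⟩⟩)⟩
        · exact ⟨c, 2, by omega, Or.inr (Or.inl rfl),
            key c 2 1 (by rw [hxge 2 (by omega) (by omega)]; omega)
            (Or.inr ⟨hc0, Or.inr ⟨rfl, rfl⟩⟩)
            (Or.inr ⟨hcm, Or.inr ⟨rfl, by
              simp only [shiftTwo, two_cast]
              split_ifs <;> first | rfl | decide | omega⟩⟩)⟩
  obtain ⟨r, t, h, h1, h2, h3, h4⟩ := witnessTwo m r1 e he
  exact ⟨r, t, h, hgood r t h1 h2 h3 h4⟩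

end Two

/-- Skeletons exist over every `Fin n → ZMod 2`, with left colours on multiples of any `d`. -/
theorem skel_exists (d : ℕ) (hd : 0 < d) : ∀ n : ℕ, Nonempty (Skel (Fin n → ZMod 2) d)
  | 0 => ⟨{
      D := d
      pos := hd
      dvd := dvd_rfl
      left := fun r => if r = 0 then some 0 else none
      right := fun _ => some 0
      shift := fun _ => 0
      left_dvd := fun r a h => by
        split_ifs at h with hr
        exact (ZMod.natCast_eq_zero_iff r d).1 hr
      sound := fun r t a b _ _ => Subsingleton.elim _ _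
      complete := fun m a => ⟨0, m, zero_add m, by simp [Subsingleton.elim a 0],
        by simp [Subsingleton.elim a 0]⟩ }⟩
  | n + 1 => by
      obtain ⟨S⟩ := skel_exists d hd n
      set q := 20 * S.D + 1 with hq
      set p := 20 * S.D * q + 1 with hp
      have hD := S.pos
      have : NeZero q := ⟨by omega⟩
      have hp3 : 3 ≤ p := by
        have : 1 ≤ S.D * q := Nat.mul_pos hD (by omega)
        rw [hp, mul_assoc]; omega
      have : NeZero p := ⟨by omega⟩
      have hqD : Nat.Coprime q S.D := by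
        rw [hq, add_comm]
        exact (Nat.coprime_add_mul_right_left 1 S.D 20).2 (Nat.coprime_one_left _)
      have hpq : Nat.Coprime p q := by
        rw [hp, add_comm]
        exact (Nat.coprime_add_mul_right_left 1 q (20 * S.D)).2 (Nat.coprime_one_left _)
      have hpD : Nat.Coprime p S.D := by
        rw [hp, add_comm, show 20 * S.D * q = 20 * q * S.D by ring]
        exact (Nat.coprime_add_mul_right_left 1 S.D (20 * q)).2 (Nat.coprime_one_left _)
      have hcop : Nat.Coprime S.D (p * q) := (hpD.symm).mul_right hqD.symm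
      let e : ZMod (S.D * (p * q)) ≃+* ZMod S.D × (ZMod p × ZMod q) :=
        (ZMod.chineseRemainder hcop).trans
          ((RingEquiv.refl _).prodCongr (ZMod.chineseRemainder hpq))
      refine ⟨{
        D := S.D * (p * q)
        pos := Nat.mul_pos hD (Nat.mul_pos (by omega) (by omega))
        dvd := S.dvd.trans (dvd_mul_right _ _)
        left := fun r => (leftTwo p q (e r).2).bind fun a =>
          (S.left (e r).1).map fun v => Fin.cons a v
        right := fun t => (rightTwo p q (e t).2).bind fun b =>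
          (S.right (e t).1).map fun v => Fin.cons b v
        shift := fun m => Fin.cons (shiftTwo p q (e m).2) (S.shift (e m).1)
        left_dvd := ?_
        sound := ?_
        complete := ?_ }⟩
      · intro r a h
        simp only [map_natCast, Prod.fst_natCast, Option.bind_eq_some_iff,
          Option.map_eq_some_iff] at h
        obtain ⟨-, -, v, hv, -⟩ := h
        exact S.left_dvd r v hv
      · intro r t a b ha hb
        simp only [Option.bind_eq_some_iff, Option.map_eq_some_iff] at ha hb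
        obtain ⟨a0, ha0, va, hva, rfl⟩ := ha
        obtain ⟨b0, hb0, vb, hvb, rfl⟩ := hb
        have h1 := soundTwo (by omega) (by omega) _ _ _ _ ha0 hb0
        have h2 := S.sound _ _ _ _ hva hvb
        ext i
        refine Fin.cases ?_ ?_ i
        · simp [h1]
        · intro j; simp [h2]
      · intro m a
        obtain ⟨r0, t0, h0, hl0, hr0⟩ := completeTwo hp3 (by omega) (by omega) (e m).2 (a 0)
        obtain ⟨r1, t1, h1, hl1, hr1⟩ := S.complete (e m).1 (Fin.tail a)
        refine ⟨e.symm (r1, r0), e.symm (t1, t0), ?_, ?_, ?_⟩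
        · rw [← map_add, Prod.mk_add_mk, h1, h0, Prod.mk.eta, RingEquiv.symm_apply_apply]
        · simp [hl0, hl1]
        · simp only [RingEquiv.apply_symm_apply, hr0, hr1, Option.bind_some, Option.map_some,
            Option.some.injEq]
          ext i
          refine Fin.cases ?_ ?_ i <;> simp [Fin.tail]

end Vale.Agent.P329.Padded
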