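import Mathlib
import Vale.Agent.P329.Expr
import Vale.Agent.P329.Padded.Skeleton

/-!
P329: reading a word through the long runs of a letter `z`. Between two long runs the automaton is
applied linearly; a long run also adds the translation of the skeleton.
-/

namespace Vale.Agent.P329.Padded

open Finset
open scoped Computability

/-- Transport of a skeleton along an isomorphism of colour groups. -/
def Skel.map {G G' : Type} [AddCommGroup G] [AddCommGroup G'] {d : ℕ} (S : Skel G d)
    (e : G ≃+ G') : Skel G' d where
  D := S.D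
  pos := S.pos
  dvd := S.dvd
  left r := (S.left r).map e
  right t := (S.right t).map e
  shift m := e (S.shift m)
  left_dvd r a h := by
    obtain ⟨a', ha, -⟩ := Option.map_eq_some_iff.1 h
    exact S.left_dvd r a' ha
  sound r t a b ha hb := by
    obtain ⟨a', ha', rfl⟩ := Option.map_eq_some_iff.1 ha
    obtain ⟨b', hb', rfl⟩ := Option.map_eq_some_iff.1 hb
    rw [S.sound r t a' b' ha' hb', map_add]
  complete m a := by
    obtain ⟨r, t, h, hl, hr⟩ := S.complete m (e.symm a)
    exact ⟨r, t, h, by simp [hl], by simp [hr]⟩

/-- Skeletons exist over the functions on a finite type. -/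
theorem skel_exists' (Q : Type) [Fintype Q] (d : ℕ) (hd : 0 < d) :
    Nonempty (Skel (Q → ZMod 2) d) := by
  obtain ⟨S⟩ := skel_exists d hd (Fintype.card Q)
  exact ⟨S.map (LinearEquiv.funCongrLeft (ZMod 2) (ZMod 2) (Fintype.equivFin Q)).toAddEquiv⟩

variable {α : Type} [DecidableEq α] {Q : Type} [Fintype Q] [DecidableEq Q] (δ : Q → α → Q) (z : α)

/-- The linear extension of the transition of a letter. -/
def step (a : α) (v : Q → ZMod 2) : Q → ZMod 2 :=
  fun q' => ∑ q ∈ univ.filter (fun q => δ q a = q'), v q

/-- The linear extension of the transition of a word. -/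
def act (v : Q → ZMod 2) (u : List α) : Q → ZMod 2 := u.foldl (fun v a => step δ a v) v

omit [DecidableEq α] in
theorem step_add (a : α) (v w : Q → ZMod 2) : step δ a (v + w) = step δ a v + step δ a w := by
  funext q'
  simp [step, sum_add_distrib]

omit [DecidableEq α] in
theorem step_single (a : α) (q : Q) :
    step δ a (Pi.single q 1) = Pi.single (δ q a) 1 := by
  funext q'
  by_cases h : δ q a = q'
  · subst h
    simp [step]
  · simp [step, h, Ne.symm h]

omit [DecidableEq α] in
theorem act_single : ∀ (u : List α) (q : Q),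
    act δ (Pi.single q 1) u = Pi.single (u.foldl δ q) 1
  | [], q => rfl
  | a :: u, q => by
      simp only [act, List.foldl_cons, step_single]
      exact act_single u _

/-- `k` readings of `z`. -/
def zp (k : ℕ) (v : Q → ZMod 2) : Q → ZMod 2 := (step δ z)^[k] v

omit [DecidableEq α] in
theorem zp_add' (k : ℕ) (v w : Q → ZMod 2) : zp δ z k (v + w) = zp δ z k v + zp δ z k w := by
  induction k with
  | zero => rfl
  | succ k ih =>
    simp only [zp, Function.iterate_succ', Function.comp_apply] at ih ⊢
    rw [ih, step_add]

omit [DecidableEq α] in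
/-- The readings of `z` are eventually periodic. -/
theorem zp_periodic : ∃ t0 d : ℕ, 0 < d ∧ ∀ a b, t0 ≤ a → t0 ≤ b → a % d = b % d →
    zp δ z a = zp δ z b := by
  obtain ⟨i, j, hij, he⟩ := Finite.exists_ne_map_eq_of_infinite (zp δ z)
  wlog hlt : i < j generalizing i j
  · exact this j i hij.symm he.symm (by omega)
  refine ⟨i, j - i, by omega, ?_⟩
  have hper : ∀ t, i ≤ t → zp δ z (t + (j - i)) = zp δ z t := by
    intro t ht
    funext v
    obtain ⟨s, rfl⟩ := Nat.exists_eq_add_of_le ht
    have := congrFun he v
    simp only [zp] at this ⊢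
    rw [show i + s + (j - i) = s + j by omega, show i + s = s + i by omega,
      Function.iterate_add_apply, Function.iterate_add_apply, this]
  have hmul : ∀ n t, i ≤ t → zp δ z (t + n * (j - i)) = zp δ z t := by
    intro n
    induction n with
    | zero => intro t _; simp
    | succ n ih =>
      intro t ht
      rw [Nat.succ_mul, ← Nat.add_assoc, hper _ (by omega), ih t ht]
  intro a b ha hb hab
  wlog hle : a ≤ b generalizing a b
  · exact (this b a hb ha hab.symm (by omega)).symm
  obtain ⟨c, hc⟩ := (Nat.modEq_iff_dvd' hle).1 hab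
  rw [show b = a + c * (j - i) by rw [Nat.mul_comm] at hc; omega, hmul c a ha]

variable {d : ℕ} (S : Skel (Q → ZMod 2) d) (B W : ℕ)

/-- The state after the pending run of `z`: a long run adds the translation of the skeleton. -/
def out (s : (Q → ZMod 2) × ℕ) : Q → ZMod 2 :=
  zp δ z s.2 (if 2 * B ≤ s.2 then s.1 + S.shift (s.2 : ZMod S.D) else s.1)

/-- Reading a word, keeping the state at the start of the final run of `z` and its length. -/
def scan (s : (Q → ZMod 2) × ℕ) (u : List α) : (Q → ZMod 2) × ℕ :=
  u.foldl (fun s a => if a = z then (s.1, s.2 + 1) else (step δ a (out δ z S B s), 0)) s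

theorem scan_append (s : (Q → ZMod 2) × ℕ) (u v : List α) :
    scan δ z S B s (u ++ v) = scan δ z S B (scan δ z S B s u) v := List.foldl_append

theorem scan_replicate (y : Q → ZMod 2) : ∀ n k,
    scan δ z S B (y, k) (List.replicate n z) = (y, k + n)
  | 0, k => rfl
  | n + 1, k => by
      rw [List.replicate_succ]
      show scan δ z S B (if z = z then (y, k + 1) else _) (List.replicate n z) = _
      rw [if_pos rfl, scan_replicate y n (k + 1)]
      congr 1
      omega

/-- The reading is affine, with the linear part of the automaton. -/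
theorem out_scan_add : ∀ (w : List α) (x y : Q → ZMod 2) (k : ℕ),
    out δ z S B (scan δ z S B (y + x, k) w) =
      act δ (zp δ z k x) w + out δ z S B (scan δ z S B (y, k) w)
  | [], x, y, k => by
      by_cases h : 2 * B ≤ k
      · simp only [scan, List.foldl_nil, act, out, h, ↓reduceIte]
        rw [← zp_add']; congr 1; abel
      · simp only [scan, List.foldl_nil, act, out, h, ↓reduceIte]
        rw [← zp_add']; congr 1; abel
  | a :: w, x, y, k => by
      by_cases ha : a = z
      · have ih := out_scan_add w x y (k + 1)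
        simp only [scan, List.foldl_cons, if_pos ha] at ih ⊢
        rw [ih]
        simp [ha, act, zp, Function.iterate_succ_apply']
      · have hout : step δ a (out δ z S B (y + x, k)) =
            step δ a (out δ z S B (y, k)) + step δ a (zp δ z k x) := by
          rw [← step_add]
          congr 1
          simp only [out]
          split_ifs <;> rw [← zp_add'] <;> congr 1 <;> abel
        have ih := out_scan_add w (step δ a (zp δ z k x)) (step δ a (out δ z S B (y, k))) 0
        simp only [scan, List.foldl_cons, if_neg ha, hout] at ih ⊢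
        rw [ih]
        rfl

/-- The end state of a word read from `x`. -/
def fin (x : Q → ZMod 2) (w : List α) : Q → ZMod 2 := out δ z S B (scan δ z S B (x, 0) w)

theorem fin_eq (x : Q → ZMod 2) (w : List α) : fin δ z S B x w = act δ x w + fin δ z S B 0 w := by
  have := out_scan_add δ z S B w x 0 0
  rw [zero_add] at this
  exact this

variable {B}

omit [DecidableEq α] in
theorem out_zero (hB : 0 < B) (y : Q → ZMod 2) : out δ z S B (y, 0) = y := by
  simp [out, zp, show ¬ 2 * B ≤ 0 by omega]

theorem scan_head (hB : 0 < B) {u : List α} (hne : u ≠ []) (hu : u.head? ≠ some z)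
    (s : (Q → ZMod 2) × ℕ) : scan δ z S B s u = scan δ z S B (out δ z S B s, 0) u := by
  cases u with
  | nil => exact absurd rfl hne
  | cons a u =>
    have ha : a ≠ z := fun e => hu (by simp [e])
    simp only [scan, List.foldl_cons, if_neg ha, out_zero δ z S hB]

theorem out_scan_head (hB : 0 < B) {u : List α} (hu : u.head? ≠ some z)
    (s : (Q → ZMod 2) × ℕ) :
    out δ z S B (scan δ z S B s u) = out δ z S B (scan δ z S B (out δ z S B s, 0) u) := by
  by_cases hne : u = []
  · subst hne
    simp [scan, out_zero δ z S hB]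
  · rw [scan_head δ z S hB hne hu s]

theorem scan_last {u : List α} (hu : u.getLast? ≠ some z) (y : Q → ZMod 2) :
    (scan δ z S B (y, 0) u).2 = 0 := by
  rcases u.eq_nil_or_concat' with rfl | ⟨v, a, rfl⟩
  · rfl
  · have ha : a ≠ z := fun e => hu (by simp [e])
    rw [scan_append]
    simp [scan, ha]

variable (B)

/-- A left cut position with its colour. -/
def CutL (a : Q → ZMod 2) (r : ℕ) : Prop :=
  B ≤ r ∧ r < B + S.D ∧ S.left (r : ZMod S.D) = some a

/-- A right cut position with its colour. -/
def CutR (b : Q → ZMod 2) (t : ℕ) : Prop :=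
  B ≤ t ∧ t < B + S.D ∧ S.right (t : ZMod S.D) = some b

/-- The first piece of a cutting. -/
def Pre (x : Q → ZMod 2) (w : List α) : Prop :=
  ∃ u r a, u.length ≤ W ∧ scan δ z S B (x, 0) u = (a, 0) ∧ CutL S B a r ∧
    w = u ++ List.replicate r z

/-- The inner pieces of a cutting. -/
def Mid (w : List α) : Prop :=
  w = List.replicate S.D z ∨
    ∃ t u r b a, CutR S B b t ∧ u ≠ [] ∧ u.length ≤ W ∧ u.head? ≠ some z ∧
      scan δ z S B (zp δ z t b, 0) u = (a, 0) ∧ CutL S B a r ∧
      w = List.replicate t z ++ u ++ List.replicate r z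

/-- The last piece of a cutting. -/
def Suf (y : Q → ZMod 2) (w : List α) : Prop :=
  ∃ t u b, CutR S B b t ∧ u.length ≤ W ∧ u.head? ≠ some z ∧
    out δ z S B (scan δ z S B (zp δ z t b, 0) u) = y ∧ w = List.replicate t z ++ u

/-- A word cut from `x` to `y`. -/
def Parse (x y : Q → ZMod 2) (w : List α) : Prop :=
  ∃ p m s, Pre δ z S B W x p ∧ m ∈ (mk (Mid δ z S B W))∗ ∧ Suf δ z S B W y s ∧ w = p ++ m ++ s

/-- The states met at the cuts. -/
def AtCut (s : (Q → ZMod 2) × ℕ) : Prop := ∃ r j, CutL S B s.1 r ∧ s.2 = r + j * S.D

variable {B W}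
variable {t0 : ℕ} (hper : ∀ a b, t0 ≤ a → t0 ≤ b → a % d = b % d → zp δ z a = zp δ z b)
  (ht0 : t0 ≤ B) (hB : 0 < B)

include hper ht0 in
omit [DecidableEq α] in
theorem out_cut {a b : Q → ZMod 2} {r t n : ℕ} (j : ℕ) (hl : CutL S B a r) (hr : CutR S B b t)
    (hn : n = r + j * S.D + t) : out δ z S B (a, n) = zp δ z t b := by
  subst hn
  obtain ⟨hr1, -, hra⟩ := hl
  obtain ⟨ht1, -, htb⟩ := hr
  have hcast : ((r + j * S.D + t : ℕ) : ZMod S.D) = (r : ZMod S.D) + (t : ZMod S.D) := by simp
  have hmod : (r + j * S.D + t) % d = t % d := by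
    have h1 : d ∣ r + j * S.D := dvd_add (S.left_dvd r a hra) (Dvd.dvd.mul_left S.dvd j)
    obtain ⟨c, hc⟩ := h1
    rw [hc]
    simp [Nat.add_mod]
  simp only [out, show 2 * B ≤ r + j * S.D + t by omega, if_true, hcast,
    ← S.sound _ _ _ _ hra htb]
  rw [hper _ _ (by omega) (by omega) hmod]

include hper ht0 hB in
theorem mid_atCut {m : List α} (hm : Mid δ z S B W m) {s : (Q → ZMod 2) × ℕ}
    (hs : AtCut S B s) : AtCut S B (scan δ z S B s m) := by
  obtain ⟨a, k⟩ := s
  obtain ⟨r, j, hl, hk⟩ := hs
  simp only at hl hk
  rcases hm with rfl | ⟨t, u, r', b, a', hr, hne, -, hu, hsc, hl', rfl⟩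
  · rw [scan_replicate]
    exact ⟨r, j + 1, hl, by simp only [hk, Nat.succ_mul]; omega⟩
  · rw [List.append_assoc, scan_append, scan_replicate, scan_append,
      scan_head δ z S hB hne hu, out_cut δ z S hper ht0 j hl hr (by omega), hsc, scan_replicate]
    exact ⟨r', 0, hl', by simp⟩

include hper ht0 hB in
/-- A cutting computes the end state. -/
theorem parse_sound {x y : Q → ZMod 2} {w : List α} (h : Parse δ z S B W x y w) :
    y = fin δ z S B x w := by
  obtain ⟨p, m, s, ⟨u, r, a, -, hsc, hl, rfl⟩, hm, ⟨t, v, b, hr, -, hv, hy, rfl⟩, rfl⟩ := h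
  have h0 : AtCut S B (scan δ z S B (x, 0) (u ++ List.replicate r z)) := by
    rw [scan_append, hsc, scan_replicate]
    exact ⟨r, 0, hl, by simp⟩
  obtain ⟨L, rfl, hL⟩ := Language.mem_kstar.1 hm
  have hc : ∀ s, AtCut S B s → AtCut S B (scan δ z S B s L.flatten) := by
    clear h0 hm
    induction L with
    | nil => intro s hs; exact hs
    | cons m L ih =>
      intro s hs
      rw [List.flatten_cons, scan_append]
      exact ih (fun y hy => hL y (List.mem_cons_of_mem _ hy)) _
        (mid_atCut δ z S hper ht0 hB (hL m List.mem_cons_self) hs)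
  have h1 := hc _ h0
  rw [fin, scan_append, scan_append (u := u ++ List.replicate r z)]
  generalize scan δ z S B (scan δ z S B (x, 0) (u ++ List.replicate r z)) L.flatten = s at h1
  obtain ⟨a', k⟩ := s
  obtain ⟨r', j, hl', hk⟩ := h1
  simp only at hl' hk
  rw [scan_append, scan_replicate, out_scan_head δ z S hB hv,
    out_cut δ z S hper ht0 j hl' hr (by omega), hy]

omit [DecidableEq α] in
/-- The first long run of `z`. -/
theorem first_run {M : ℕ} (hM : 0 < M) : ∀ {l : List α}, List.replicate M z <:+: l →
    ∃ u n l', l = u ++ List.replicate n z ++ l' ∧ M ≤ n ∧ ¬ List.replicate M z <:+: u ∧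
      u.getLast? ≠ some z ∧ l'.head? ≠ some z
  | [], h => by
      have := h.length_le
      simp only [List.length_replicate, List.length_nil] at this
      omega
  | a :: l, h => by
      classical
      by_cases hp : List.replicate M z <+: a :: l
      · refine ⟨[], ((a :: l).takeWhile (· = z)).length, (a :: l).dropWhile (· = z), ?_, ?_, ?_,
          by simp, ?_⟩
        · have : (a :: l).takeWhile (· = z) =
              List.replicate ((a :: l).takeWhile (· = z)).length z :=
            List.eq_replicate_iff.2 ⟨rfl, fun b hb => by simpa using List.mem_takeWhile_imp hb⟩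
          rw [← this, List.nil_append, List.takeWhile_append_dropWhile]
        · obtain ⟨r, hr⟩ := hp
          rw [← hr, List.takeWhile_append_of_pos (by simp)]
          simp
        · intro hc
          have := hc.length_le
          simp only [List.length_replicate, List.length_nil] at this
          omega
        · intro he
          have := List.head?_dropWhile_not (fun b => decide (b = z)) (a :: l)
          rw [he] at this
          simp at this
      · obtain ⟨u, n, l', rfl, hn, hu, hlast, hl'⟩ :=
          first_run hM ((List.infix_cons_iff.1 h).resolve_left hp)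
        refine ⟨a :: u, n, l', rfl, hn, ?_, ?_, hl'⟩
        · intro hc
          rcases List.infix_cons_iff.1 hc with hc | hc
          · exact hp (hc.trans (by simp [List.append_assoc]))
          · exact hu hc
        · cases u with
          | cons b u => simpa [List.getLast?_cons_cons] using hlast
          | nil =>
            intro ha
            simp only [List.getLast?_singleton, Option.some.injEq] at ha
            subst ha
            refine hp ?_
            obtain ⟨c, rfl⟩ := Nat.exists_eq_add_of_le hn
            exact ⟨List.replicate (c + 1) a ++ l', by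
              rw [← List.append_assoc, ← List.replicate_add, List.nil_append,
                show M + (c + 1) = (M + c) + 1 by omega, List.replicate_succ, List.cons_append]⟩

/-- Every window of length `W` contains a run of `z` of length `M`. -/
def Rich (M W : ℕ) (w : List α) : Prop :=
  ∀ u v t, w = u ++ v ++ t → v.length = W → List.replicate M z <:+: v

omit [DecidableEq α] in
theorem Rich.of_infix {M : ℕ} {u w : List α} (h : Rich z M W w) (hu : u <:+: w) :
    Rich z M W u := by
  obtain ⟨a, b, rfl⟩ := hu
  intro p v t he hv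
  exact h (a ++ p) v (t ++ b) (by simp [he, List.append_assoc]) hv

omit [DecidableEq α] in
theorem Rich.short {M : ℕ} {u : List α} (h : Rich z M W u)
    (hu : ¬ List.replicate M z <:+: u) : u.length < W := by
  by_contra hc
  rw [not_lt] at hc
  exact hu ((h [] (u.take W) (u.drop W) (by simp) (by simp [hc])).trans
    (List.take_prefix W u).isInfix)

omit [Fintype Q] [DecidableEq Q] in
theorem exists_cut (S : Skel (Q → ZMod 2) d) (x : ZMod S.D) :
    ∃ r, B ≤ r ∧ r < B + S.D ∧ (r : ZMod S.D) = x := by
  have : NeZero S.D := ⟨S.pos.ne'⟩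
  exact ⟨B + (x - (B : ZMod S.D)).val, by omega,
    by have := ZMod.val_lt (x - (B : ZMod S.D)); omega, by
    rw [Nat.cast_add, ZMod.natCast_zmod_val]; ring⟩

omit [DecidableEq α] [DecidableEq Q] [Fintype Q] in
theorem choose_cuts {n : ℕ} (hn : 2 * B + 2 * S.D ≤ n) (a : Q → ZMod 2) :
    ∃ r j t, CutL S B a r ∧ CutR S B (a + S.shift n) t ∧ n = r + j * S.D + t := by
  obtain ⟨r', t', hrt, hl, hr⟩ := S.complete (n : ZMod S.D) a
  obtain ⟨r, hr1, hr2, rfl⟩ := exists_cut (B := B) S r'
  obtain ⟨t, ht1, ht2, rfl⟩ := exists_cut (B := B) S t'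
  have hle : r + t ≤ n := by omega
  have : S.D ∣ n - (r + t) := by
    refine (Nat.modEq_iff_dvd' hle).1 ((ZMod.natCast_eq_natCast_iff _ _ _).1 ?_)
    rw [Nat.cast_add, hrt]
  obtain ⟨j, hj⟩ := this
  exact ⟨r, j, t, ⟨hr1, hr2, hl⟩, ⟨ht1, ht2, hr⟩, by rw [Nat.mul_comm] at hj; omega⟩

omit [DecidableEq α] in
theorem mem_kstar_replicate {L : Language α} {v : List α} (hv : v ∈ L) (j : ℕ) :
    (List.replicate j v).flatten ∈ L∗ :=
  Language.mem_kstar.2 ⟨_, rfl, fun _ hy => List.eq_of_mem_replicate hy ▸ hv⟩

omit [DecidableEq α] in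
theorem flatten_replicate_replicate (n : ℕ) : ∀ j,
    (List.replicate j (List.replicate n z)).flatten = List.replicate (j * n) z
  | 0 => by simp
  | j + 1 => by
      rw [List.replicate_succ, List.flatten_cons, flatten_replicate_replicate n j,
        ← List.replicate_add]
      congr 1
      rw [Nat.succ_mul]
      omega

include hper ht0 hB in
theorem tail_complete (rest : List α) (hrest : rest.head? ≠ some z)
    (hR : Rich z (2 * B + 2 * S.D) W rest) (t : ℕ) (b : Q → ZMod 2) (hb : CutR S B b t) :
    ∃ m s, m ∈ (mk (Mid δ z S B W))∗ ∧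
      Suf δ z S B W (out δ z S B (scan δ z S B (zp δ z t b, 0) rest)) s ∧
      List.replicate t z ++ rest = m ++ s := by
  by_cases hi : List.replicate (2 * B + 2 * S.D) z <:+: rest
  · obtain ⟨u, n, rest', he, hn, hu, hlast, hrest'⟩ := first_run z (by omega) hi
    have hne : u ≠ [] := by
      rintro rfl
      obtain ⟨c, rfl⟩ : ∃ c, n = c + 1 := ⟨n - 1, by omega⟩
      exact hrest (by rw [he]; simp [List.replicate_succ])
    have huhead : u.head? ≠ some z := by
      rw [he, List.append_assoc, List.head?_append_of_ne_nil _ hne] at hrest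
      exact hrest
    have hul : u.length ≤ W := le_of_lt <| Rich.short z
      (hR.of_infix z ⟨[], List.replicate n z ++ rest', by simp [he]⟩) hu
    set a := (scan δ z S B (zp δ z t b, 0) u).1 with ha
    have hsc : scan δ z S B (zp δ z t b, 0) u = (a, 0) :=
      Prod.ext rfl (scan_last δ z S hlast _)
    obtain ⟨r, j, t', hl', hr', hn'⟩ := choose_cuts S hn a
    have hlen : rest'.length < rest.length := by
      rw [he]
      simp only [List.length_append, List.length_replicate]
      omega
    obtain ⟨m, s, hm, hs, hms⟩ := tail_complete rest' hrest'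
      (hR.of_infix z ⟨u ++ List.replicate n z, [], by simp [he]⟩) t' _ hr'
    refine ⟨(List.replicate t z ++ u ++ List.replicate r z) ++
      ((List.replicate j (List.replicate S.D z)).flatten ++ m), s, ?_, ?_, ?_⟩
    · obtain ⟨L, hL1, hL2⟩ := Language.mem_kstar.1 hm
      refine Language.mem_kstar.2 ⟨(List.replicate t z ++ u ++ List.replicate r z) ::
        (List.replicate j (List.replicate S.D z) ++ L), by simp [hL1], ?_⟩
      simp only [List.mem_cons, List.mem_append, List.mem_replicate]
      rintro y (rfl | ⟨-, rfl⟩ | hy)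
      · exact Or.inr ⟨t, u, r, b, a, hb, hne, hul, huhead, hsc, hl', rfl⟩
      · exact Or.inl rfl
      · exact hL2 y hy
    · rw [he, scan_append, scan_append, hsc, scan_replicate, Nat.zero_add,
        out_scan_head δ z S hB hrest', out_cut δ z S hper ht0 j hl' hr' hn']
      exact hs
    · rw [he, flatten_replicate_replicate z, hn', List.replicate_add, List.replicate_add]
      simp only [List.append_assoc]
      rw [hms]
  · refine ⟨[], List.replicate t z ++ rest, Language.nil_mem_kstar _,
      ⟨t, rest, b, hb, (Rich.short z hR hi).le, hrest, rfl, rfl⟩, by simp⟩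
  termination_by rest.length

include hper ht0 hB in
/-- A word with a long run and no long gap has a cutting from every state. -/
theorem parse_complete {w : List α} (hR : Rich z (2 * B + 2 * S.D) W w)
    (hi : List.replicate (2 * B + 2 * S.D) z <:+: w) (x : Q → ZMod 2) :
    Parse δ z S B W x (fin δ z S B x w) w := by
  obtain ⟨u, n, rest, he, hn, hu, hlast, hrest⟩ := first_run z (by omega) hi
  have hul : u.length ≤ W := le_of_lt <| Rich.short z
    (hR.of_infix z ⟨[], List.replicate n z ++ rest, by simp [he]⟩) hu
  set a := (scan δ z S B (x, 0) u).1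
  have hsc : scan δ z S B (x, 0) u = (a, 0) := Prod.ext rfl (scan_last δ z S hlast _)
  obtain ⟨r, j, t, hl, hr, hn'⟩ := choose_cuts S hn a
  obtain ⟨m, s, hm, hs, hms⟩ := tail_complete δ z S hper ht0 hB rest hrest
    (hR.of_infix z ⟨u ++ List.replicate n z, [], by simp [he]⟩) t _ hr
  refine ⟨u ++ List.replicate r z, (List.replicate j (List.replicate S.D z)).flatten ++ m, s,
    ⟨u, r, a, hul, hsc, hl, rfl⟩, ?_, ?_, ?_⟩
  · obtain ⟨L, hL1, hL2⟩ := Language.mem_kstar.1 hm
    refine Language.mem_kstar.2 ⟨List.replicate j (List.replicate S.D z) ++ L, by simp [hL1], ?_⟩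
    simp only [List.mem_append, List.mem_replicate]
    rintro y (⟨-, rfl⟩ | hy)
    · exact Or.inl rfl
    · exact hL2 y hy
  · rw [fin, he, scan_append, scan_append, hsc, scan_replicate, Nat.zero_add,
      out_scan_head δ z S hB hrest, out_cut δ z S hper ht0 j hl hr hn']
    exact hs
  · rw [he, flatten_replicate_replicate z, hn', List.replicate_add, List.replicate_add]
    simp only [List.append_assoc]
    rw [hms]

end Vale.Agent.P329.Padded
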