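import Mathlib
import Vale.Agent.P329.Padded.Scan

/-!
P329: on the words in which long runs of one letter recur with bounded gaps, every regular language
has generalized star height at most one.
-/

namespace Vale.Agent.P329.Padded

open Finset
open scoped Computability

variable {α : Type}

theorem has_word {k : ℕ} : ∀ u : List α, Has k (mk fun w => w = u)
  | [] => Has.nil'
  | a :: u => ((Has.single' a).concat' (has_word u)).of_iff fun w => by
      simp only [mem_mk]
      constructor
      · rintro ⟨_, _, rfl, rfl, rfl⟩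
        rfl
      · rintro rfl
        exact ⟨[a], u, rfl, rfl, rfl⟩

variable [Fintype α]

/-- Bounded languages are star-free. -/
theorem has_bounded {k : ℕ} (N : ℕ) (P : List α → Prop) (hP : ∀ w, P w → w.length ≤ N) :
    Has k (mk P) := by
  classical
  have hfin : {w : List α | P w}.Finite := (List.finite_length_le α N).subset hP
  exact (Has.sum hfin.toFinset fun u _ => has_word u).of_iff fun w => by simp [mem_sum]

variable [DecidableEq α] {Q : Type} [Fintype Q] [DecidableEq Q] (δ : Q → α → Q) (z : α)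
variable {d : ℕ} (S : Skel (Q → ZMod 2) d) (B W : ℕ)

theorem has_parse (x y : Q → ZMod 2) : Has 1 (mk (Parse δ z S B W x y)) := by
  have hpre : Has 1 (mk (Pre δ z S B W x)) :=
    has_bounded (W + (B + S.D)) _ fun w => by
      rintro ⟨u, r, a, hu, -, ⟨-, hr, -⟩, rfl⟩
      simp only [List.length_append, List.length_replicate]
      omega
  have hsuf : Has 1 (mk (Suf δ z S B W y)) :=
    has_bounded (W + (B + S.D)) _ fun w => by
      rintro ⟨t, u, b, ⟨-, ht, -⟩, hu, -, -, rfl⟩
      simp only [List.length_append, List.length_replicate]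
      omega
  have hmid : Has 1 (mk fun w => w ∈ (mk (Mid δ z S B W))∗) :=
    Has.star (k := 0) <| has_bounded (W + 2 * (B + S.D)) _ fun w => by
      rintro (rfl | ⟨t, u, r, b, a, ⟨-, ht, -⟩, -, hu, -, -, ⟨-, hr, -⟩, rfl⟩)
      · simp only [List.length_replicate]; omega
      · simp only [List.length_append, List.length_replicate]
        omega
  exact ((hpre.concat' hmid).concat' hsuf).of_iff fun w => by
    simp only [mem_mk, Parse]
    constructor
    · rintro ⟨_, s, ⟨p, m, hp, hm, rfl⟩, hs, rfl⟩
      exact ⟨p, m, s, hp, hm, hs, rfl⟩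
    · rintro ⟨p, m, s, hp, hm, hs, rfl⟩
      exact ⟨p ++ m, s, ⟨p, m, hp, hm, rfl⟩, hs, rfl⟩

omit [DecidableEq α] in
theorem has_rich (M : ℕ) : Has 0 (mk (Rich z M W)) := by
  refine (((Has.true'.concat' (has_bounded (k := 0) W
    (fun v => v.length = W ∧ ¬ List.replicate M z <:+: v) fun v h => h.1.le)).concat'
      Has.true').not').of_iff fun w => ?_
  simp only [mem_mk, Rich]
  constructor
  · intro h u v t e hv
    by_contra hc
    exact h ⟨u ++ v, t, ⟨u, v, trivial, ⟨hv, hc⟩, rfl⟩, trivial, e⟩
  · rintro h ⟨_, t, ⟨u, v, -, ⟨hv, hc⟩, rfl⟩, -, e⟩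
    exact hc (h u v t e hv)

omit [DecidableEq α] [Fintype α] in
theorem has_infix (u : List α) : Has 0 (mk fun w => u <:+: w) :=
  ((Has.true'.concat' (has_word u)).concat' Has.true').of_iff fun w => by
    simp only [mem_mk]
    constructor
    · rintro ⟨_, t, ⟨p, _, -, rfl, rfl⟩, -, rfl⟩
      exact ⟨p, t, rfl⟩
    · rintro ⟨p, t, rfl⟩
      exact ⟨p ++ u, t, ⟨p, u, trivial, rfl, rfl⟩, trivial, rfl⟩

omit [DecidableEq α] [DecidableEq Q] in
/-- The languages of an automaton have height one on words where long runs of `z` recur. -/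
theorem height_one_rich (q0 : Q) (F : Set Q) :
    ∃ M : ℕ, ∀ W : ℕ, Has 1 (mk fun w => w.foldl δ q0 ∈ F ∧ Rich z M W w) := by
  classical
  obtain ⟨t0, d, hd, hper⟩ := zp_periodic δ z
  obtain ⟨S⟩ := skel_exists' Q d hd
  refine ⟨2 * (t0 + 1) + 2 * S.D, fun W => ?_⟩
  set B := t0 + 1 with hB
  set M := 2 * B + 2 * S.D with hM
  have hlong : Has 1 (mk fun w => ∃ z' : Q × (Q → ZMod 2), z'.1 ∈ F ∧
      Parse δ z S B W (Pi.single q0 1) (Pi.single z'.1 1 + z'.2) w ∧
      Parse δ z S B W 0 z'.2 w) :=
    Has.iUnion' fun z' => (Has.const' (z'.1 ∈ F)).inter'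
      ((has_parse δ z S B W _ _).inter' (has_parse δ z S B W _ _))
  have hshort : Has 1 (mk fun w : List α => w.length ≤ W ∧ w.foldl δ q0 ∈ F ∧
      ¬ List.replicate M z <:+: w) := has_bounded W _ fun w h => h.1
  have hrich : Has 1 (mk (Rich z M W)) := (has_rich z W M).mono (Nat.zero_le _)
  have hinf : Has 1 (mk fun w => List.replicate M z <:+: w) :=
    (has_infix (List.replicate M z)).mono (Nat.zero_le _)
  refine (hrich.inter' (hshort.or' (hinf.inter' hlong))).of_iff fun w => ?_
  simp only [mem_mk]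
  constructor
  · rintro ⟨hR, ⟨-, hF, -⟩ | ⟨-, ⟨q, c⟩, hq, h1, h0⟩⟩
    · exact ⟨hF, hR⟩
    · refine ⟨?_, hR⟩
      have e1 := parse_sound δ z S hper (by omega) (by omega) h1
      have e0 := parse_sound δ z S hper (by omega) (by omega) h0
      simp only at e1 e0 hq
      rw [fin_eq, act_single, ← e0, add_left_inj] at e1
      have := congrFun e1 q
      rw [Pi.single_eq_same] at this
      by_cases he : w.foldl δ q0 = q
      · rwa [he]
      · rw [Pi.single_eq_of_ne (Ne.symm he)] at this
        exact absurd this one_ne_zero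
  · rintro ⟨hF, hR⟩
    refine ⟨hR, ?_⟩
    by_cases hi : List.replicate M z <:+: w
    · refine Or.inr ⟨hi, ⟨w.foldl δ q0, fin δ z S B 0 w⟩, hF, ?_,
        parse_complete δ z S hper (by omega) (by omega) hR hi 0⟩
      have h := parse_complete δ z S hper (by omega) (by omega) hR hi (Pi.single q0 1)
      rw [fin_eq, act_single] at h
      exact h
    · exact Or.inl ⟨(Rich.short z hR hi).le, hF, hi⟩

end Vale.Agent.P329.Padded
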